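import Mathlib

open scoped ContDiff Topology

namespace Vale.Agent.Results.P229.TranslationInvariant

lemma primitive_smooth {u : ℝ → ℝ} {a b x0 : ℝ} (hx0 : x0 ∈ Set.Ioo a b)
    (hu : ContDiffOn ℝ ∞ u (Set.Ioo a b)) :
    ContDiffOn ℝ ∞ (fun x => ∫ t in x0..x, u t) (Set.Ioo a b) ∧
    ∀ x ∈ Set.Ioo a b, HasDerivAt (fun x => ∫ t in x0..x, u t) (u x) x := by
  have hc : ContinuousOn u (Set.Ioo a b) := hu.continuousOn
  have h : ∀ x ∈ Set.Ioo a b, HasDerivAt (fun x => ∫ t in x0..x, u t) (u x) x := by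
    intro x hx
    apply intervalIntegral.integral_hasDerivAt_right
    · apply ContinuousOn.intervalIntegrable
      apply hc.mono
      exact Set.OrdConnected.uIcc_subset Set.ordConnected_Ioo hx0 hx
    · exact hc.stronglyMeasurableAtFilter isOpen_Ioo x hx
    · exact hc.continuousAt (isOpen_Ioo.mem_nhds hx)
  refine ⟨?_, h⟩
  rw [contDiffOn_infty_iff_deriv_of_isOpen isOpen_Ioo]
  exact ⟨fun x hx => (h x hx).differentiableAt.differentiableWithinAt,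
    hu.congr (fun x hx => (h x hx).deriv)⟩

/-- one-dimensional core: profile data of a rescaled surface of revolution -/
lemma profile_exists {e f g : ℝ → ℝ} {x0 d0 : ℝ} (hd0 : 0 < d0)
    (he : ContDiffOn ℝ ∞ e (Set.Ioo (x0 - d0) (x0 + d0)))
    (hf : ContDiffOn ℝ ∞ f (Set.Ioo (x0 - d0) (x0 + d0)))
    (hg : ContDiffOn ℝ ∞ g (Set.Ioo (x0 - d0) (x0 + d0)))
    (hgpos : ∀ x ∈ Set.Ioo (x0 - d0) (x0 + d0), 0 < g x)
    (hdet : ∀ x ∈ Set.Ioo (x0 - d0) (x0 + d0), 0 < e x * g x - f x ^ 2) :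
    ∃ d : ℝ, 0 < d ∧ d ≤ d0 ∧ ∃ a : ℝ, 0 < a ∧ ∃ r φ h r' φ' h' : ℝ → ℝ,
      ContDiffOn ℝ ∞ r (Set.Ioo (x0 - d) (x0 + d)) ∧
      ContDiffOn ℝ ∞ φ (Set.Ioo (x0 - d) (x0 + d)) ∧
      ContDiffOn ℝ ∞ h (Set.Ioo (x0 - d) (x0 + d)) ∧
      ∀ x ∈ Set.Ioo (x0 - d) (x0 + d),
        HasDerivAt r (r' x) x ∧ HasDerivAt φ (φ' x) x ∧ HasDerivAt h (h' x) x ∧
        a ^ 2 * r x ^ 2 = g x ∧ a ^ 2 * r x ^ 2 * φ' x = f x ∧
        r' x ^ 2 + a ^ 2 * r x ^ 2 * φ' x ^ 2 + h' x ^ 2 = e x := by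
  set I := Set.Ioo (x0 - d0) (x0 + d0) with hI
  have hx0 : x0 ∈ I := ⟨by linarith, by linarith⟩
  have hIo : IsOpen I := isOpen_Ioo
  have hg' : ContDiffOn ℝ ∞ (deriv g) I := hg.deriv_of_isOpen hIo (by simp)
  have hgne : ∀ x ∈ I, g x ≠ 0 := fun x hx => (hgpos x hx).ne'
  set D0 := e x0 * g x0 - f x0 ^ 2 with hD0
  have hD0pos : 0 < D0 := hdet x0 hx0
  set a : ℝ := (deriv g x0) ^ 2 / (4 * D0) + 1 with ha
  have ha1 : 1 ≤ a := by
    have : 0 ≤ (deriv g x0) ^ 2 / (4 * D0) := by positivity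
    linarith
  have hapos : 0 < a := by linarith
  -- the function under the square root
  set w : ℝ → ℝ := fun x => e x - f x ^ 2 / g x - (deriv g x) ^ 2 / (4 * a ^ 2 * g x) with hw
  have hwsm : ContDiffOn ℝ ∞ w I := by
    apply ContDiffOn.sub
    · apply ContDiffOn.sub he
      exact (hf.pow 2).div hg hgne
    · apply (hg'.pow 2).div (contDiffOn_const.mul hg)
      intro x hx
      have := hgpos x hx
      positivity
  have hw0 : 0 < w x0 := by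
    have hg0 := hgpos x0 hx0
    have h1 : e x0 - f x0 ^ 2 / g x0 = D0 / g x0 := by
      rw [hD0]; field_simp
    have h2 : (deriv g x0) ^ 2 / (4 * a ^ 2 * g x0) < D0 / g x0 := by
      rw [div_lt_div_iff₀ (by positivity) hg0]
      have h3 : (deriv g x0) ^ 2 < 4 * D0 * a := by
        have : (deriv g x0) ^ 2 / (4 * D0) < a := by rw [ha]; linarith
        rw [div_lt_iff₀ (by positivity)] at this
        linarith
      have h4 : a ≤ a ^ 2 := by nlinarith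
      have h5 : 4 * D0 * a ≤ 4 * D0 * a ^ 2 := by
        apply mul_le_mul_of_nonneg_left h4 (by positivity)
      nlinarith
    simp only [hw]
    rw [h1]
    linarith
  -- positivity of w near x0
  have hwcont : ContinuousAt w x0 := hwsm.continuousOn.continuousAt (hIo.mem_nhds hx0)
  have hev : ∀ᶠ x in 𝓝 x0, 0 < w x := hwcont.eventually (lt_mem_nhds hw0)
  obtain ⟨d1, hd1, hball⟩ := Metric.eventually_nhds_iff_ball.1 hev
  set d := min d0 d1 with hd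
  have hdpos : 0 < d := lt_min hd0 hd1
  have hdle : d ≤ d0 := min_le_left _ _
  set J := Set.Ioo (x0 - d) (x0 + d) with hJ
  have hJI : J ⊆ I := Set.Ioo_subset_Ioo (by linarith) (by linarith)
  have hx0J : x0 ∈ J := ⟨by linarith, by linarith⟩
  have hwposJ : ∀ x ∈ J, 0 < w x := by
    intro x hx
    apply hball
    rw [Metric.mem_ball, Real.dist_eq, abs_lt]
    have : d ≤ d1 := min_le_right _ _
    constructor <;> [linarith [hx.1]; linarith [hx.2]]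
  obtain ⟨hφsm, hφd⟩ := primitive_smooth (u := fun x => f x / g x) hx0J
    ((hf.div hg hgne).mono hJI)
  obtain ⟨hhsm, hhd⟩ := primitive_smooth (u := fun x => Real.sqrt (w x)) hx0J
    ((hwsm.mono hJI).sqrt (fun x hx => (hwposJ x hx).ne'))
  refine ⟨d, hdpos, hdle, a, hapos, fun x => Real.sqrt (g x) / a, _, _,
    fun x => deriv g x / (2 * Real.sqrt (g x)) / a, fun x => f x / g x,
    fun x => Real.sqrt (w x), ?_, hφsm, hhsm, ?_⟩
  · exact ((hg.sqrt hgne).div_const a).mono hJI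
  · intro x hx
    have hxI := hJI hx
    have hgx := hgpos x hxI
    have hsq : Real.sqrt (g x) ^ 2 = g x := Real.sq_sqrt hgx.le
    have hsqpos : 0 < Real.sqrt (g x) := Real.sqrt_pos.2 hgx
    refine ⟨?_, hφd x hx, hhd x hx, ?_, ?_, ?_⟩
    · have hgd : HasDerivAt g (deriv g x) x :=
        ((hg.contDiffAt (hIo.mem_nhds hxI)).differentiableAt (by simp)).hasDerivAt
      exact (hgd.sqrt hgx.ne').div_const a
    · field_simp
      exact hsq
    · have : a ^ 2 * (Real.sqrt (g x) / a) ^ 2 = g x := by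
        field_simp
        exact hsq
      rw [this]
      field_simp
    · have h1 : a ^ 2 * (Real.sqrt (g x) / a) ^ 2 = g x := by
        field_simp
        exact hsq
      rw [h1, Real.sq_sqrt (hwposJ x hx).le]
      have h2 : (deriv g x / (2 * Real.sqrt (g x)) / a) ^ 2 = (deriv g x) ^ 2 / (4 * a ^ 2 * g x) := by
        rw [div_pow, div_pow, mul_pow, hsq]
        field_simp
        ring
      rw [h2]
      simp only [hw]
      field_simp
      ring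



/-- Coefficients `E = g₁₁`, `F = g₁₂ = g₂₁`, `G = g₂₂` of a symmetric 2-tensor on the plane. -/
structure MetricCoeffs where
  E : ℝ × ℝ → ℝ
  F : ℝ × ℝ → ℝ
  G : ℝ × ℝ → ℝ

/-- `g` is a `C^∞` positive definite Riemannian metric on the open set `Ω`. -/
def IsSmoothMetricOn (g : MetricCoeffs) (Ω : Set (ℝ × ℝ)) : Prop :=
  IsOpen Ω ∧ ContDiffOn ℝ ∞ g.E Ω ∧ ContDiffOn ℝ ∞ g.F Ω ∧ ContDiffOn ℝ ∞ g.G Ω ∧
    ∀ p ∈ Ω, 0 < g.E p ∧ 0 < g.E p * g.G p - g.F p ^ 2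

/-- `Φ` is a `C^∞` isometric immersion of `(U, g)` into Euclidean 3-space. -/
def IsSmoothIsometricImmersionOn (g : MetricCoeffs) (U : Set (ℝ × ℝ))
    (Φ : ℝ × ℝ → EuclideanSpace ℝ (Fin 3)) : Prop :=
  ContDiffOn ℝ ∞ Φ U ∧ ∀ p ∈ U,
    inner ℝ (fderiv ℝ Φ p (1, 0)) (fderiv ℝ Φ p (1, 0)) = g.E p ∧
    inner ℝ (fderiv ℝ Φ p (1, 0)) (fderiv ℝ Φ p (0, 1)) = g.F p ∧
    inner ℝ (fderiv ℝ Φ p (0, 1)) (fderiv ℝ Φ p (0, 1)) = g.G p

/-- `g` is locally `C^∞`-realizable at `p`. -/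
def LocallySmoothlyRealizableAt (g : MetricCoeffs) (p : ℝ × ℝ) : Prop :=
  ∃ U : Set (ℝ × ℝ), IsOpen U ∧ p ∈ U ∧
    ∃ Φ : ℝ × ℝ → EuclideanSpace ℝ (Fin 3), IsSmoothIsometricImmersionOn g U Φ

lemma dirDerivs_of_components {Φ : ℝ × ℝ → EuclideanSpace ℝ (Fin 3)} {q : ℝ × ℝ}
    (hΦ : DifferentiableAt ℝ Φ q) (i : Fin 3) {vx vy : ℝ}
    (hx : HasDerivAt (fun t => Φ (t, q.2) i) vx q.1)
    (hy : HasDerivAt (fun t => Φ (q.1, t) i) vy q.2) :
    fderiv ℝ Φ q (1, 0) i = vx ∧ fderiv ℝ Φ q (0, 1) i = vy := by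
  have hL : HasFDerivAt Φ (fderiv ℝ Φ q) q := hΦ.hasFDerivAt
  have hi : HasFDerivAt (fun p => Φ p i) ((EuclideanSpace.proj i).comp (fderiv ℝ Φ q)) q :=
    (EuclideanSpace.proj (𝕜 := ℝ) i).hasFDerivAt.comp q hL
  constructor
  · have hc : HasDerivAt (fun t : ℝ => (t, q.2)) ((1 : ℝ), (0 : ℝ)) q.1 :=
      (hasDerivAt_id q.1).prodMk (hasDerivAt_const q.1 q.2)
    have := HasFDerivAt.comp_hasDerivAt (f := fun t : ℝ => (t, q.2)) q.1 hi hc
    exact this.unique hx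
  · have hc : HasDerivAt (fun t : ℝ => (q.1, t)) ((0 : ℝ), (1 : ℝ)) q.2 :=
      (hasDerivAt_const q.2 q.1).prodMk (hasDerivAt_id q.2)
    have := HasFDerivAt.comp_hasDerivAt (f := fun t : ℝ => (q.1, t)) q.2 hi hc
    exact this.unique hy



theorem result (g : MetricCoeffs) (Ω : Set (ℝ × ℝ)) (hg : IsSmoothMetricOn g Ω)
    (p : ℝ × ℝ) (hp : p ∈ Ω)
    (hinv : ∃ V : Set (ℝ × ℝ), IsOpen V ∧ p ∈ V ∧ ∀ q ∈ V, ∀ q' ∈ V, q.1 = q'.1 →
      g.E q = g.E q' ∧ g.F q = g.F q' ∧ g.G q = g.G q') :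
    LocallySmoothlyRealizableAt g p := by
  obtain ⟨hΩ, hE, hF, hG, hpos⟩ := hg
  obtain ⟨V, hV, hpV, hVinv⟩ := hinv
  obtain ⟨d0, hd0, hball⟩ := Metric.isOpen_iff.1 (hΩ.inter hV) p ⟨hp, hpV⟩
  set x0 := p.1 with hx0
  set y0 := p.2 with hy0
  have hbox : ∀ x ∈ Set.Ioo (x0 - d0) (x0 + d0), ∀ y ∈ Set.Ioo (y0 - d0) (y0 + d0),
      (x, y) ∈ Ω ∩ V := by
    intro x hx y hy
    apply hball
    rw [← Real.ball_eq_Ioo] at hx hy
    have : (x, y) ∈ Metric.ball p.1 d0 ×ˢ Metric.ball p.2 d0 := ⟨hx, hy⟩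
    rwa [ball_prod_same] at this
  have hy0mem : y0 ∈ Set.Ioo (y0 - d0) (y0 + d0) := ⟨by linarith, by linarith⟩
  have hmaps : Set.MapsTo (fun x : ℝ => (x, y0)) (Set.Ioo (x0 - d0) (x0 + d0)) Ω :=
    fun x hx => (hbox x hx y0 hy0mem).1
  have hline : ContDiffOn ℝ ∞ (fun x : ℝ => (x, y0)) (Set.Ioo (x0 - d0) (x0 + d0)) :=
    (contDiff_id.prodMk contDiff_const).contDiffOn
  obtain ⟨d, hd, hdle, a, ha, r, φ, h, r', φ', h', hr, hφ, hh, hrel⟩ :=
    profile_exists (e := fun x => g.E (x, y0)) (f := fun x => g.F (x, y0))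
      (g := fun x => g.G (x, y0)) (x0 := x0) hd0
      (hE.comp hline hmaps) (hF.comp hline hmaps) (hG.comp hline hmaps)
      (by
        intro x hx
        obtain ⟨h1, h2⟩ := hpos _ (hmaps hx)
        by_contra hcon
        rw [not_lt] at hcon
        nlinarith [sq_nonneg (g.F (x, y0)), mul_nonneg h1.le (neg_nonneg.2 hcon)])
      (fun x hx => (hpos _ (hmaps hx)).2)
  set J := Set.Ioo (x0 - d) (x0 + d) with hJ
  set K := Set.Ioo (y0 - d) (y0 + d) with hK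
  set U : Set (ℝ × ℝ) := J ×ˢ K with hU
  have hUo : IsOpen U := isOpen_Ioo.prod isOpen_Ioo
  set Φ : ℝ × ℝ → EuclideanSpace ℝ (Fin 3) := fun q =>
    !₂[r q.1 * Real.cos (a * (q.2 + φ q.1)), r q.1 * Real.sin (a * (q.2 + φ q.1)), h q.1] with hΦ
  have hfst : Set.MapsTo (fun q : ℝ × ℝ => q.1) U J := fun q hq => hq.1
  have hr2 : ContDiffOn ℝ ∞ (fun q : ℝ × ℝ => r q.1) U := hr.comp contDiffOn_fst hfst
  have hφ2 : ContDiffOn ℝ ∞ (fun q : ℝ × ℝ => φ q.1) U := hφ.comp contDiffOn_fst hfst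
  have hh2 : ContDiffOn ℝ ∞ (fun q : ℝ × ℝ => h q.1) U := hh.comp contDiffOn_fst hfst
  have harg : ContDiffOn ℝ ∞ (fun q : ℝ × ℝ => a * (q.2 + φ q.1)) U :=
    contDiffOn_const.mul (contDiffOn_snd.add hφ2)
  have hΦsm : ContDiffOn ℝ ∞ Φ U := by
    rw [contDiffOn_euclidean]
    intro i
    fin_cases i
    · exact hr2.mul harg.cos
    · exact hr2.mul harg.sin
    · exact hh2
  refine ⟨U, hUo, ⟨⟨by linarith, by linarith⟩, ⟨by linarith, by linarith⟩⟩, Φ, hΦsm, ?_⟩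
  intro q hq
  have hdiff : DifferentiableAt ℝ Φ q :=
    (hΦsm.contDiffAt (hUo.mem_nhds hq)).differentiableAt (by simp)
  obtain ⟨hrd, hφd, hhd, h1, h2, h3⟩ := hrel q.1 hq.1
  set θ := a * (q.2 + φ q.1) with hθ
  -- derivative of the angle
  have hθx : HasDerivAt (fun t => a * (q.2 + φ t)) (a * φ' q.1) q.1 := by
    simpa using (hφd.const_add q.2).const_mul a
  have hθy : HasDerivAt (fun t => a * (t + φ q.1)) a q.2 := by
    simpa using ((hasDerivAt_id q.2).add_const (φ q.1)).const_mul a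
  obtain ⟨hx0', hy0'⟩ := dirDerivs_of_components hdiff 0
    (vx := r' q.1 * Real.cos θ + r q.1 * (-Real.sin θ * (a * φ' q.1)))
    (vy := r q.1 * (-Real.sin θ * a))
    (hrd.mul hθx.cos) (hθy.cos.const_mul (r q.1))
  obtain ⟨hx1', hy1'⟩ := dirDerivs_of_components hdiff 1
    (vx := r' q.1 * Real.sin θ + r q.1 * (Real.cos θ * (a * φ' q.1)))
    (vy := r q.1 * (Real.cos θ * a))
    (hrd.mul hθx.sin) (hθy.sin.const_mul (r q.1))
  obtain ⟨hx2', hy2'⟩ := dirDerivs_of_components hdiff 2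
    (vx := h' q.1) (vy := 0) hhd (hasDerivAt_const q.2 (h q.1))
  have hcs : Real.cos θ ^ 2 + Real.sin θ ^ 2 = 1 := Real.cos_sq_add_sin_sq θ
  -- coefficients at q equal coefficients at (q.1, y0)
  have hqV : q ∈ V := by
    have := hbox q.1 (Set.Ioo_subset_Ioo (by linarith) (by linarith) hq.1) q.2
      (Set.Ioo_subset_Ioo (by linarith) (by linarith) hq.2)
    exact this.2
  have hq0V : (q.1, y0) ∈ V :=
    (hbox q.1 (Set.Ioo_subset_Ioo (by linarith) (by linarith) hq.1) y0 hy0mem).2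
  obtain ⟨hEq, hFq, hGq⟩ := hVinv q hqV (q.1, y0) hq0V rfl
  rw [hEq, hFq, hGq]
  simp only [PiLp.inner_apply, Fin.sum_univ_three, hx0', hx1', hx2', hy0', hy1', hy2',
    RCLike.inner_apply, conj_trivial]
  refine ⟨?_, ?_, ?_⟩
  · rw [← h3]
    linear_combination (r' q.1 ^ 2 + a ^ 2 * r q.1 ^ 2 * φ' q.1 ^ 2) * hcs
  · rw [← h2]
    linear_combination (a ^ 2 * r q.1 ^ 2 * φ' q.1) * hcs
  · rw [← h1]
    linear_combination (a ^ 2 * r q.1 ^ 2) * hcs

end Vale.Agent.Results.P229.TranslationInvariant
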